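import Mathlib

/-!
# The number of halving great circles through a generic point is odd

Abstract form: a finite family of lines through the origin of a plane, sorted by slope.
No sorting is used: induction on the element of largest slope, for all levels at once.
-/

namespace Vale.Agent.P040.Sph6

open Finset

section Level

variable {ι : Type} [DecidableEq ι]

/-- number of positive elements of larger slope plus number of negative elements of smaller slope -/
noncomputable def ff (a t : ι → ℝ) (s : Finset ι) (u : ι) : ℕ :=
  (s.filter fun v => 0 < a v ∧ t u < t v).card + (s.filter fun v => a v < 0 ∧ t v < t u).card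

/-- number of positive elements -/
noncomputable def pp (a : ι → ℝ) (s : Finset ι) : ℕ := (s.filter fun v => 0 < a v).card

/-- number of negative elements -/
noncomputable def qq (a : ι → ℝ) (s : Finset ι) : ℕ := (s.filter fun v => a v < 0).card

lemma level_parity (a t : ι → ℝ) (s : Finset ι) :
    (∀ u ∈ s, a u ≠ 0) → Set.InjOn t (s : Set ι) →
    ∀ K : ℤ, (((s.filter fun u => (ff a t s u : ℤ) = K).card : ℕ) : ZMod 2)
      = (if (pp a s : ℤ) ≤ K then 1 else 0) + (if (qq a s : ℤ) ≤ K then 1 else 0) := by
  induction s using Finset.induction_on_max_value t with
  | empty =>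
    intro _ _ K
    simp only [pp, qq, Finset.filter_empty, Finset.card_empty, Nat.cast_zero]
    split_ifs <;> decide
  | insert m s hm hmax ih =>
    intro ha ht K
    have ha' : ∀ u ∈ s, a u ≠ 0 := fun u hu => ha u (Finset.mem_insert_of_mem hu)
    have ht' : Set.InjOn t (s : Set ι) := ht.mono (by
      intro x hx
      exact Finset.mem_coe.mpr (Finset.mem_insert_of_mem (Finset.mem_coe.mp hx)))
    have hlt : ∀ x ∈ s, t x < t m := fun x hx =>
      lt_of_le_of_ne (hmax x hx) (fun h => hm (by
        have := ht (Finset.mem_coe.mpr (Finset.mem_insert_of_mem hx))
          (Finset.mem_coe.mpr (Finset.mem_insert_self m s)) h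
        exact this ▸ hx))
    have hffm : ff a t (insert m s) m = qq a s := by
      unfold ff qq
      have h1 : ((insert m s).filter fun v => 0 < a v ∧ t m < t v) = ∅ := by
        apply Finset.filter_eq_empty_iff.mpr
        intro v hv h
        rcases Finset.mem_insert.mp hv with rfl | hv
        · exact lt_irrefl _ h.2
        · exact lt_asymm h.2 (hlt v hv)
      have h2 : ((insert m s).filter fun v => a v < 0 ∧ t v < t m) = s.filter fun v => a v < 0 := by
        ext v
        simp only [Finset.mem_filter, Finset.mem_insert]
        constructor
        · rintro ⟨rfl | hv, h1, h2⟩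
          · exact absurd h2 (lt_irrefl _)
          · exact ⟨hv, h1⟩
        · rintro ⟨hv, h1⟩
          exact ⟨Or.inr hv, h1, hlt v hv⟩
      rw [h1, h2]
      simp
    have hffs : ∀ u ∈ s, ff a t (insert m s) u = ff a t s u + (if 0 < a m then 1 else 0) := by
      intro u hu
      unfold ff
      have h2 : ((insert m s).filter fun v => a v < 0 ∧ t v < t u)
          = s.filter fun v => a v < 0 ∧ t v < t u := by
        rw [Finset.filter_insert, if_neg]
        intro h
        exact lt_asymm h.2 (hlt u hu)
      rw [h2, Finset.filter_insert]
      by_cases hpos : 0 < a m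
      · rw [if_pos ⟨hpos, hlt u hu⟩, if_pos hpos, Finset.card_insert_of_notMem]
        · ring
        · intro h
          exact hm (Finset.mem_filter.mp h).1
      · rw [if_neg (fun h => hpos h.1), if_neg hpos, add_zero]
    have hpp : pp a (insert m s) = pp a s + (if 0 < a m then 1 else 0) := by
      unfold pp
      rw [Finset.filter_insert]
      by_cases hpos : 0 < a m
      · rw [if_pos hpos, if_pos hpos, Finset.card_insert_of_notMem]
        intro h
        exact hm (Finset.mem_filter.mp h).1
      · rw [if_neg hpos, if_neg hpos, add_zero]
    have hqq : qq a (insert m s) = qq a s + (if a m < 0 then 1 else 0) := by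
      unfold qq
      rw [Finset.filter_insert]
      by_cases hneg : a m < 0
      · rw [if_pos hneg, if_pos hneg, Finset.card_insert_of_notMem]
        intro h
        exact hm (Finset.mem_filter.mp h).1
      · rw [if_neg hneg, if_neg hneg, add_zero]
    have hcount : ∀ e : ℕ, (if 0 < a m then 1 else 0) = e →
        ((insert m s).filter fun u => (ff a t (insert m s) u : ℤ) = K).card
        = (if (qq a s : ℤ) = K then 1 else 0)
          + (s.filter fun u => (ff a t s u : ℤ) = K - e).card := by
      intro e he
      rw [Finset.filter_insert, hffm]
      have h3 : (s.filter fun u => (ff a t (insert m s) u : ℤ) = K)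
          = s.filter fun u => (ff a t s u : ℤ) = K - e := by
        apply Finset.filter_congr
        intro u hu
        rw [hffs u hu, he]
        push_cast
        constructor <;> intro h <;> linarith
      rw [h3]
      by_cases h : (qq a s : ℤ) = K
      · rw [if_pos h, if_pos h, Finset.card_insert_of_notMem, add_comm]
        intro h'
        exact hm (Finset.mem_filter.mp h').1
      · rw [if_neg h, if_neg h, zero_add]
    rcases lt_or_gt_of_ne (ha m (Finset.mem_insert_self m s)) with hneg | hpos
    · have hnp : ¬ 0 < a m := not_lt.mpr hneg.le
      rw [hcount 0 (if_neg hnp), hpp, hqq, if_neg hnp, if_pos hneg]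
      push_cast
      rw [sub_zero, ih ha' ht' K]
      split_ifs <;>
        first
          | decide
          | (exfalso; omega)
    · have hnn : ¬ a m < 0 := not_lt.mpr hpos.le
      rw [hcount 1 (if_pos hpos), hpp, hqq, if_pos hpos, if_neg hnn]
      push_cast
      rw [ih ha' ht' (K - 1)]
      split_ifs <;>
        first
          | decide
          | (exfalso; omega)

lemma ff_eq (a t : ι → ℝ) (s : Finset ι) (u : ι) :
    ff a t s u = (s.filter fun v => 0 < a v * (t v - t u)).card := by
  unfold ff
  rw [← Finset.card_union_of_disjoint]
  · congr 1
    ext v
    simp only [Finset.mem_union, Finset.mem_filter, mul_pos_iff, sub_pos, sub_neg]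
    tauto
  · rw [Finset.disjoint_left]
    intro v hv hv'
    exact lt_asymm (Finset.mem_filter.mp hv).2.1 (Finset.mem_filter.mp hv').2.1

end Level

section Abs

variable {ι : Type} [Fintype ι] [DecidableEq ι]

/-- **Odd count, abstract form.**  `D u v` plays the role of `det (w, u, v)`. -/
theorem odd_halving_abs (k : ℕ) (hcard : Fintype.card ι = 2 * k + 1) (D : ι → ι → ℝ) (o : ι)
    (b : ι → ℝ) (c : ℝ) (hc : 0 < c)
    (hanti : ∀ u v, D v u = - D u v) (hne : ∀ u v, u ≠ v → D u v ≠ 0)
    (hD : ∀ u v, c * D u v = D o u * b v - b u * D o v) :
    Odd (univ.filter fun u => (univ.filter fun v => 0 < D u v).card = k).card := by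
  classical
  set a : ι → ℝ := fun u => D o u with ha
  set t : ι → ℝ := fun u => b u / a u with ht
  set s : Finset ι := univ.erase o with hs
  have hao : a o = 0 := by
    have := hanti o o
    simp only [ha]
    linarith
  have has : ∀ u ∈ s, a u ≠ 0 := fun u hu => hne o u (Finset.ne_of_mem_erase hu).symm
  have hDt : ∀ u ∈ s, ∀ v ∈ s, c * D u v = a u * (a v * (t v - t u)) := by
    intro u hu v hv
    rw [hD u v]
    have h1 := has u hu
    have h2 := has v hv
    simp only [ht]
    field_simp
    simp only [ha]
    ring
  have hinj : Set.InjOn t (s : Set ι) := by
    intro u hu v hv huv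
    by_contra hne'
    have := hDt u hu v hv
    rw [huv, sub_self, mul_zero, mul_zero] at this
    exact hne u v hne' ((mul_eq_zero.mp this).resolve_left hc.ne')
  have hscard : s.card = 2 * k := by
    rw [hs, Finset.card_erase_of_mem (mem_univ o), Finset.card_univ, hcard]
    rfl
  have huniv : (univ : Finset ι) = insert o s := by
    rw [hs, Finset.insert_erase (mem_univ o)]
  have hos : o ∉ s := by
    rw [hs]
    exact Finset.notMem_erase o univ
  have hpq : pp a s + qq a s = 2 * k := by
    rw [← hscard]
    unfold pp qq
    rw [← Finset.card_union_of_disjoint]
    · congr 1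
      ext v
      simp only [Finset.mem_union, Finset.mem_filter]
      constructor
      · rintro (h | h) <;> exact h.1
      · intro hv
        rcases lt_or_gt_of_ne (has v hv) with h | h
        · exact Or.inr ⟨hv, h⟩
        · exact Or.inl ⟨hv, h⟩
    · rw [Finset.disjoint_left]
      intro v hv hv'
      exact lt_asymm (Finset.mem_filter.mp hv).2 (Finset.mem_filter.mp hv').2
  have hscore_o : (univ.filter fun v => 0 < D o v).card = pp a s := by
    unfold pp
    rw [huniv, Finset.filter_insert, if_neg]
    change ¬ 0 < a o
    rw [hao]
    exact lt_irrefl 0
  have hscore : ∀ u ∈ s, ((univ.filter fun v => 0 < D u v).card = k ↔ (ff a t s u : ℤ) = k) := by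
    intro u hu
    have hDuo : D u o = - a u := hanti o u
    rw [ff_eq]
    rcases lt_or_gt_of_ne (has u hu) with hneg | hpos
    · -- negative: complement
      have h1 : (univ.filter fun v => 0 < D u v).card
          = (s.filter fun v => a v * (t v - t u) < 0).card + 1 := by
        rw [huniv, Finset.filter_insert, if_pos (by rw [hDuo]; linarith),
          Finset.card_insert_of_notMem (fun h => hos (Finset.mem_filter.mp h).1)]
        congr 2
        apply Finset.filter_congr
        intro v hv
        have h2 := hDt u hu v hv
        constructor
        · intro h
          have h3 : 0 < a u * (a v * (t v - t u)) := by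
            rw [← h2]
            exact mul_pos hc h
          by_contra h4
          exact absurd h3 (not_lt.mpr (mul_nonpos_of_nonpos_of_nonneg hneg.le (not_lt.mp h4)))
        · intro h
          have h3 : 0 < c * D u v := by
            rw [h2]
            exact mul_pos_of_neg_of_neg hneg h
          exact (pos_iff_pos_of_mul_pos h3).mp hc
      have h2 : (s.filter fun v => 0 < a v * (t v - t u)).card
          + (s.filter fun v => a v * (t v - t u) < 0).card = 2 * k - 1 := by
        rw [← hscard, ← Finset.card_erase_of_mem hu, ← Finset.card_union_of_disjoint]
        · congr 1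
          ext v
          simp only [Finset.mem_union, Finset.mem_filter, Finset.mem_erase]
          constructor
          · rintro (h | h)
            · refine ⟨?_, h.1⟩
              rintro rfl
              simp at h
            · refine ⟨?_, h.1⟩
              rintro rfl
              simp at h
          · rintro ⟨hvu, hv⟩
            have h3 : a v * (t v - t u) ≠ 0 :=
              mul_ne_zero (has v hv) (sub_ne_zero.mpr fun h => hvu (hinj hv hu h))
            rcases lt_or_gt_of_ne h3 with h | h
            · exact Or.inr ⟨hv, h⟩
            · exact Or.inl ⟨hv, h⟩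
        · rw [Finset.disjoint_left]
          intro v hv hv'
          exact lt_asymm (Finset.mem_filter.mp hv).2 (Finset.mem_filter.mp hv').2
      have hk : 1 ≤ 2 * k := by
        rw [← hscard]
        exact Finset.card_pos.mpr ⟨u, hu⟩
      rw [h1]
      omega
    · have h1 : (univ.filter fun v => 0 < D u v).card
          = (s.filter fun v => 0 < a v * (t v - t u)).card := by
        rw [huniv, Finset.filter_insert, if_neg (by rw [hDuo]; linarith)]
        congr 1
        apply Finset.filter_congr
        intro v hv
        have h2 := hDt u hu v hv
        constructor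
        · intro h
          have h3 : 0 < a u * (a v * (t v - t u)) := by
            rw [← h2]
            exact mul_pos hc h
          exact (pos_iff_pos_of_mul_pos h3).mp hpos
        · intro h
          have h3 : 0 < c * D u v := by
            rw [h2]
            exact mul_pos hpos h
          exact (pos_iff_pos_of_mul_pos h3).mp hc
      rw [h1]
      omega
  have hmain : (univ.filter fun u => (univ.filter fun v => 0 < D u v).card = k).card
      = (if pp a s = k then 1 else 0) + (s.filter fun u => (ff a t s u : ℤ) = k).card := by
    rw [huniv, Finset.filter_insert, ← huniv, hscore_o]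
    have h3 : (s.filter fun u => (univ.filter fun v => 0 < D u v).card = k)
        = s.filter fun u => (ff a t s u : ℤ) = k := Finset.filter_congr hscore
    rw [h3]
    by_cases h : pp a s = k
    · rw [if_pos h, if_pos h, Finset.card_insert_of_notMem (fun h => hos (Finset.mem_filter.mp h).1),
        add_comm]
    · rw [if_neg h, if_neg h, zero_add]
  have hpar := level_parity a t s has hinj (k : ℤ)
  rw [← Nat.not_even_iff_odd, ← ZMod.natCast_eq_zero_iff_even, hmain]
  push_cast
  rw [hpar]
  split_ifs <;>
    first
      | decide
      | (exfalso; omega)

end Abs

end Vale.Agent.P040.Sph6
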