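import Vale.Agent.P040.Sph56.Defs
import Vale.Agent.P040.Sph6.OddCount

/-!
# The number of halving great circles through a generic point `w` is odd (concrete form)
-/

namespace Vale.Agent.P040.Sph6

open Finset Vale.Agent.P040.Sph56

/-- **Odd count.**  `2k+1` vectors `v i`, a vector `w` such that no great circle through `w` contains two
of them: the number of `i` such that the great circle through `w` and `v i` has exactly `k` of the
vectors strictly on its positive side is odd. -/
theorem odd_halving (k : ℕ) (v : Fin (2 * k + 1) → V3) (w : V3)
    (hw : ∀ i j, i ≠ j → det3 w (v i) (v j) ≠ 0) :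
    Odd (univ.filter fun i => (univ.filter fun j => 0 < det3 w (v i) (v j)).card = k).card := by
  classical
  by_cases hk : k = 0
  · subst hk
    have h0 : ∀ i j : Fin (2 * 0 + 1), ¬ 0 < det3 w (v i) (v j) := by
      intro i j
      have : i = j := Subsingleton.elim (α := Fin 1) i j
      subst this
      have : det3 w (v i) (v i) = 0 := by
        unfold det3
        ring
      rw [this]
      exact lt_irrefl 0
    have h1 : (univ.filter fun i : Fin (2 * 0 + 1) =>
        (univ.filter fun j => 0 < det3 w (v i) (v j)).card = 0) = univ := by
      apply Finset.filter_true_of_mem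
      intro i _
      rw [Finset.card_eq_zero]
      apply Finset.filter_eq_empty_iff.mpr
      intro j _
      exact h0 i j
    rw [h1]
    exact ⟨0, rfl⟩
  · set n0 : V3 := crs w (v 0) with hn0
    have hdet : ∀ x, det3 w (v 0) x = dot n0 x := by
      intro x
      simp only [det3, dot, crs, hn0]
      ring
    have hpos : 0 < dot n0 n0 := by
      have h1 : dot n0 (v ⟨1, by omega⟩) ≠ 0 := by
        rw [← hdet]
        exact hw _ _ (by simp [Fin.ext_iff])
      have h2 : 0 ≤ dot n0 n0 :=
        add_nonneg (add_nonneg (mul_self_nonneg _) (mul_self_nonneg _)) (mul_self_nonneg _)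
      rcases h2.lt_or_eq with h | h
      · exact h
      · exfalso
        apply h1
        unfold dot at h
        have e1 : n0.1 = 0 := by
          nlinarith [mul_self_nonneg n0.1, mul_self_nonneg n0.2.1, mul_self_nonneg n0.2.2]
        have e2 : n0.2.1 = 0 := by
          nlinarith [mul_self_nonneg n0.1, mul_self_nonneg n0.2.1, mul_self_nonneg n0.2.2]
        have e3 : n0.2.2 = 0 := by
          nlinarith [mul_self_nonneg n0.1, mul_self_nonneg n0.2.1, mul_self_nonneg n0.2.2]
        unfold dot
        rw [e1, e2, e3]
        ring
    refine odd_halving_abs k (by simp) (fun i j => det3 w (v i) (v j)) 0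
      (fun u => dot (crs w n0) (v u)) (dot n0 n0) hpos ?_ hw ?_
    · intro i j
      simp only [det3]
      ring
    · intro i j
      simp only [det3, dot, crs, hn0]
      ring

end Vale.Agent.P040.Sph6
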