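import Mathlib

/-!
# Abstract handshake / parity module for the median level graph

`S` = finite set of states (edges of a graph), `X` = finite set of vertices, every state has two
ends `e1 s`, `e2 s`, every vertex is an end of an even number of states, `sg` is an involution of
the states which respects adjacency, `eps` a two-colouring of the vertices such that the set of
bichromatic states is `sg`-invariant and has `2 * h` elements with `h` odd.  Then some state is
joined to its mirror image by a chain of adjacent states.
-/

namespace Vale.Agent.P040.Sph6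

open Finset

variable {S X : Type}

/-- two states share an end -/
def Adj (e1 e2 : S → X) (s t : S) : Prop :=
  e1 s = e1 t ∨ e1 s = e2 t ∨ e2 s = e1 t ∨ e2 s = e2 t

lemma Adj.symm {e1 e2 : S → X} {s t : S} (h : Adj e1 e2 s t) : Adj e1 e2 t s := by
  rcases h with h | h | h | h
  · exact Or.inl h.symm
  · exact Or.inr (Or.inr (Or.inl h.symm))
  · exact Or.inr (Or.inl h.symm)
  · exact Or.inr (Or.inr (Or.inr h.symm))

/-- the colour of a vertex as an element of `ZMod 2` -/
def dd (eps : X → Bool) (x : X) : ZMod 2 := if eps x then 1 else 0

lemma dd_add (eps : X → Bool) (a b : X) :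
    dd eps a + dd eps b = if (eps a != eps b) = true then 1 else 0 := by
  unfold dd
  cases eps a <;> cases eps b <;> simp <;> decide

variable [Fintype S] [DecidableEq S] [Fintype X] [DecidableEq X]

lemma sum_end (F : Finset S) (e : S → X) (d : X → ZMod 2) :
    ∑ s ∈ F, d (e s) = ∑ x, (((F.filter fun s => e s = x).card : ℕ) : ZMod 2) * d x := by
  rw [← Finset.sum_fiberwise F e]
  refine Finset.sum_congr rfl fun x _ => ?_
  rw [Finset.sum_congr rfl (g := fun _ => d x)]
  · simp
  · intro s hs
    rw [(Finset.mem_filter.mp hs).2]

/-- **Handshake lemma**: no adjacency-closed set `U` with `S = U ⊔ sg U`. -/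
theorem no_split (e1 e2 : S → X) (sg : S → S) (eps : X → Bool)
    (hsg : ∀ s, sg (sg s) = s)
    (heven : ∀ x, Even ((univ.filter fun s => e1 s = x).card + (univ.filter fun s => e2 s = x).card))
    (hcut : ∀ s, (eps (e1 (sg s)) != eps (e2 (sg s))) = (eps (e1 s) != eps (e2 s)))
    (h : ℕ) (hodd : Odd h)
    (hcard : (univ.filter fun s => (eps (e1 s) != eps (e2 s)) = true).card = 2 * h)
    (U : S → Prop) [DecidablePred U] (hU : ∀ s t, Adj e1 e2 s t → U s → U t)
    (hsplit : ∀ s, U (sg s) ↔ ¬ U s) : False := by
  set F : Finset S := univ.filter U with hF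
  -- every vertex is an end of an even number of states of `U`
  have hev : ∀ x, Even ((F.filter fun s => e1 s = x).card + (F.filter fun s => e2 s = x).card) := by
    intro x
    by_cases hx : ∃ s0, U s0 ∧ (e1 s0 = x ∨ e2 s0 = x)
    · obtain ⟨s0, h0, hx0⟩ := hx
      have h1 : (F.filter fun s => e1 s = x) = univ.filter fun s => e1 s = x := by
        ext s
        simp only [hF, mem_filter, mem_univ, true_and, and_iff_right_iff_imp]
        intro hs
        refine hU s0 s ?_ h0
        rcases hx0 with hx0 | hx0
        · exact Or.inl (hx0.trans hs.symm)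
        · exact Or.inr (Or.inr (Or.inl (hx0.trans hs.symm)))
      have h2 : (F.filter fun s => e2 s = x) = univ.filter fun s => e2 s = x := by
        ext s
        simp only [hF, mem_filter, mem_univ, true_and, and_iff_right_iff_imp]
        intro hs
        refine hU s0 s ?_ h0
        rcases hx0 with hx0 | hx0
        · exact Or.inr (Or.inl (hx0.trans hs.symm))
        · exact Or.inr (Or.inr (Or.inr (hx0.trans hs.symm)))
      rw [h1, h2]
      exact heven x
    · have h1 : (F.filter fun s => e1 s = x) = ∅ := by
        apply Finset.filter_eq_empty_iff.mpr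
        intro s hs hsx
        exact hx ⟨s, (Finset.mem_filter.mp hs).2, Or.inl hsx⟩
      have h2 : (F.filter fun s => e2 s = x) = ∅ := by
        apply Finset.filter_eq_empty_iff.mpr
        intro s hs hsx
        exact hx ⟨s, (Finset.mem_filter.mp hs).2, Or.inr hsx⟩
      rw [h1, h2]
      simp
  have key1 : ∑ s ∈ F, (dd eps (e1 s) + dd eps (e2 s)) = 0 := by
    rw [Finset.sum_add_distrib, sum_end F e1, sum_end F e2, ← Finset.sum_add_distrib]
    refine Finset.sum_eq_zero fun x _ => ?_
    rw [← add_mul, ← Nat.cast_add]
    have := (ZMod.natCast_eq_zero_iff_even).mpr (hev x)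
    rw [this, zero_mul]
  have key2 : ∑ s ∈ F, (dd eps (e1 s) + dd eps (e2 s))
      = (((F.filter fun s => (eps (e1 s) != eps (e2 s)) = true).card : ℕ) : ZMod 2) := by
    rw [Finset.sum_congr rfl fun s _ => dd_add eps (e1 s) (e2 s)]
    rw [Finset.sum_boole]
  have key3 : (F.filter fun s => (eps (e1 s) != eps (e2 s)) = true).card = h := by
    have hsum : (univ.filter fun s => (eps (e1 s) != eps (e2 s)) = true).card
        = (F.filter fun s => (eps (e1 s) != eps (e2 s)) = true).card
          + ((univ.filter fun s => ¬ U s).filter fun s => (eps (e1 s) != eps (e2 s)) = true).card := by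
      rw [hF, Finset.filter_filter, Finset.filter_filter, ← Finset.card_union_of_disjoint]
      · congr 1
        ext s
        simp only [mem_filter, mem_univ, true_and, mem_union]
        by_cases hs : U s <;> simp [hs]
      · rw [Finset.disjoint_left]
        intro s hs hs'
        exact (Finset.mem_filter.mp hs').2.1 (Finset.mem_filter.mp hs).2.1
    have hbij : ((univ.filter fun s => ¬ U s).filter fun s => (eps (e1 s) != eps (e2 s)) = true).card
        = (F.filter fun s => (eps (e1 s) != eps (e2 s)) = true).card := by
      refine Finset.card_bij' (fun s _ => sg s) (fun s _ => sg s) ?_ ?_ ?_ ?_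
      · intro s hs
        simp only [hF, mem_filter, mem_univ, true_and] at hs ⊢
        exact ⟨(hsplit s).mpr hs.1, by rw [hcut]; exact hs.2⟩
      · intro s hs
        simp only [hF, mem_filter, mem_univ, true_and] at hs ⊢
        exact ⟨fun h' => (hsplit s).mp h' hs.1, by rw [hcut]; exact hs.2⟩
      · intro s _
        exact hsg s
      · intro s _
        exact hsg s
    omega
  rw [key2, key3] at key1
  have := (ZMod.natCast_eq_zero_iff_even).mp key1
  exact (Nat.not_even_iff_odd.mpr hodd) this

/-- **Parity theorem**: some state is joined to its mirror image by a chain of adjacent states. -/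
theorem exists_reach_mirror (e1 e2 : S → X) (sg : S → S) (eps : X → Bool)
    (hsg : ∀ s, sg (sg s) = s)
    (hadj : ∀ s t, Adj e1 e2 s t → Adj e1 e2 (sg s) (sg t))
    (heven : ∀ x, Even ((univ.filter fun s => e1 s = x).card + (univ.filter fun s => e2 s = x).card))
    (hcut : ∀ s, (eps (e1 (sg s)) != eps (e2 (sg s))) = (eps (e1 s) != eps (e2 s)))
    (h : ℕ) (hodd : Odd h)
    (hcard : (univ.filter fun s => (eps (e1 s) != eps (e2 s)) = true).card = 2 * h) :
    ∃ s, Relation.ReflTransGen (Adj e1 e2) s (sg s) := by
  classical
  by_contra hno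
  push Not at hno
  set R := Relation.ReflTransGen (Adj e1 e2) with hR
  have Rsymm : ∀ s t, R s t → R t s := by
    intro s t hst
    induction hst with
    | refl => exact Relation.ReflTransGen.refl
    | tail _ hbc ih => exact Relation.ReflTransGen.head hbc.symm ih
  have Rsg : ∀ s t, R s t → R (sg s) (sg t) := by
    intro s t hst
    induction hst with
    | refl => exact Relation.ReflTransGen.refl
    | tail _ hbc ih => exact Relation.ReflTransGen.tail ih (hadj _ _ hbc)
  let c : S → Set S := fun s => {t | R s t}
  have c_eq : ∀ s t, R s t → c s = c t := by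
    intro s t hst
    ext u
    exact ⟨fun hu => (Rsymm _ _ hst).trans hu, fun hu => hst.trans hu⟩
  have c_ne : ∀ s, c s ≠ c (sg s) := by
    intro s hs
    have : sg s ∈ c (sg s) := Relation.ReflTransGen.refl
    rw [← hs] at this
    exact hno s this
  let U : S → Prop := fun s => WellOrderingRel (c s) (c (sg s))
  refine no_split e1 e2 sg eps hsg heven hcut h hodd hcard U ?_ ?_
  · intro s t hst hs
    have h1 : c s = c t := c_eq _ _ (Relation.ReflTransGen.single hst)
    have h2 : c (sg s) = c (sg t) := c_eq _ _ (Rsg _ _ (Relation.ReflTransGen.single hst))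
    change WellOrderingRel (c t) (c (sg t))
    rw [← h1, ← h2]
    exact hs
  · intro s
    change WellOrderingRel (c (sg s)) (c (sg (sg s))) ↔ ¬ WellOrderingRel (c s) (c (sg s))
    rw [hsg]
    constructor
    · intro h1 h2
      exact asymm_of WellOrderingRel h1 h2
    · intro h1
      rcases trichotomous_of WellOrderingRel (c s) (c (sg s)) with h2 | h2 | h2
      · exact absurd h2 h1
      · exact absurd h2 (c_ne s)
      · exact h2

end Vale.Agent.P040.Sph6
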